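import Vale.Agent.P004K.Rc.Q

/-! # P004K, block RC: the integral basis, the group `(O / l)ˣ / (ℤ / l)ˣ` -/

set_option autoImplicit false
set_option linter.all false

open NumberField

noncomputable section

namespace Vale.Agent.P004K.Rc

open Vale.Agent.P022 P027M.M

variable {K : Type} [Field K] [NumberField K] {l n : ℕ}

theorem JJ_inj (j : K →+* Qb) : Function.Injective (JJ j) :=
  (((io : Qb →+* ℂ).comp j).injective).comp RingOfIntegers.coe_injective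

theorem iq0 (j : K →+* Qb) (h : Iq K) :
    ∃ ω : 𝓞 K, (∀ a : 𝓞 K, ∃ u v : ℤ, a = u + v * ω) ∧ 0 < (JJ j ω).im := by
  let b := Module.finBasisOfFinrankEq ℤ (𝓞 K) ((RingOfIntegers.rank K).trans h.two)
  have e : ∀ a : 𝓞 K, ∃ x y : ℤ, a = x * b 0 + y * b 1 := fun a =>
    ⟨b.repr a 0, b.repr a 1, by simpa [Fin.sum_univ_two] using (b.sum_repr a).symm⟩
  obtain ⟨x, y, e1⟩ := e 1
  obtain ⟨p, q, e2⟩ : IsCoprime x y := by
    refine Int.isCoprime_iff_gcd_eq_one.2 (Int.isUnit_iff_natAbs_eq.1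
      (isUnit_of_map_unit (algebraMap ℤ (𝓞 K)) (x.gcd y : ℤ) (isUnit_of_dvd_one ?_)))
    rw [e1]
    exact dvd_add ((map_dvd (algebraMap ℤ (𝓞 K)) (Int.gcd_dvd_left x y)).mul_right _)
      ((map_dvd (algebraMap ℤ (𝓞 K)) (Int.gcd_dvd_right x y)).mul_right _)
  have e3 : (p : 𝓞 K) * x + q * y = 1 := by exact_mod_cast congrArg (Int.cast : ℤ → 𝓞 K) e2
  obtain ⟨ω, h1⟩ : ∃ ω : 𝓞 K, ∀ a : 𝓞 K, ∃ u v : ℤ, a = u + v * ω :=
    ⟨p * b 1 - q * b 0, fun a => by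
      obtain ⟨u, v, rfl⟩ := e a
      exact ⟨u * p + v * q, v * x - u * y, by
        push_cast
        linear_combination (-(u * p) - v * q) * e1 - (u * b 0 + v * b 1) * e3⟩⟩
  have h2 : (JJ j ω).im ≠ 0 := fun k => h.im.false (ComplexEmbedding.IsReal.embedding
    (φ := (io : Qb →+* ℂ).comp j) (ComplexEmbedding.isReal_iff.2
      (IsLocalization.ringHom_ext (nonZeroDivisors (𝓞 K)) (RingHom.ext fun a => by
        obtain ⟨u, v, rfl⟩ := h1 a
        show starRingEnd ℂ (JJ j _) = JJ j _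
        simp [Complex.conj_eq_iff_im.2 k]))))
  rcases h2.lt_or_gt with k | k
  · refine ⟨-ω, fun a => ?_, by simpa using k⟩
    obtain ⟨u, v, rfl⟩ := h1 a
    exact ⟨u, -v, by simp⟩
  · exact ⟨ω, h1, k⟩

theorem qd (j : K →+* Qb) (h : Iq K) : ∃ ω s, Qd (JJ j) ω s :=
  let ⟨ω, h1, h2⟩ := iq0 j h
  ⟨ω, ex_qd (JJ_inj j) h1 h2⟩

/-- `a` generates `(O / l)ˣ / (ℤ / l)ˣ`, of order `n` -/
def Cg {O : Type} [CommRing O] (l n : ℕ) (a : O) : Prop := IsCoprime a l ∧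
  (∀ i : ℕ, Rc l (a ^ i) ↔ n ∣ i) ∧ ∀ x, IsCoprime x (l : O) → ∃ i : ℕ, Rc l (a ^ i * x)

theorem rc_dvd {O : Type} [CommRing O] {x : O} : Rc l x ↔ ∃ k : ℤ, (l : O) ∣ x - k :=
  exists_congr fun k => exists_congr fun b => by rw [sub_eq_iff_eq_add']

theorem nm_l (h : Iq K) : (Ideal.span {(l : 𝓞 K)}).absNorm = l ^ 2 := by
  rw [Ideal.absNorm_span_natCast, RingOfIntegers.rank, h.two]

theorem cyc_in (h : Iq K) (hl : l.Prime) (hp : (Ideal.span {(l : 𝓞 K)}).IsPrime) :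
    ∃ a : 𝓞 K, Cg l (l + 1) a := by
  have := Fact.mk hl
  have h0 : Ideal.span {(l : 𝓞 K)} ≠ ⊥ := by simpa using hl.ne_zero
  have := hp.isMaximal h0
  let F := 𝓞 K ⧸ Ideal.span {(l : 𝓞 K)}
  letI : Field F := Ideal.Quotient.field _
  have hc : Nat.card F = l ^ 2 := nm_l h
  have : Finite F := Nat.finite_of_card_ne_zero (hc ▸ pow_ne_zero 2 hl.ne_zero)
  let π : 𝓞 K →+* F := Ideal.Quotient.mk _
  have z : ∀ x, π x = 0 ↔ (l : 𝓞 K) ∣ x := fun x =>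
    Ideal.Quotient.eq_zero_iff_mem.trans Ideal.mem_span_singleton
  have : CharP F l := (CharP.charP_iff_prime_eq_zero hl).2 (by
    rw [← map_natCast π]; exact (z _).2 dvd_rfl)
  have r : ∀ x, Rc l x ↔ π x ^ l = π x := fun x => by
    rw [← Subfield.mem_bot_iff_pow_eq_self, mem_bot_iff_intCast l, rc_dvd]
    exact exists_congr fun k => by rw [← z, map_sub, map_intCast, sub_eq_zero, eq_comm]
  obtain ⟨γ, hγ⟩ := IsCyclic.exists_monoid_generator (α := Fˣ)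
  have o : orderOf γ = (l + 1) * (l - 1) := by
    rw [orderOf_eq_card_of_forall_mem_powers hγ, Nat.card_units, hc, ← Nat.sq_sub_sq, one_pow]
  obtain ⟨a, ha⟩ := Ideal.Quotient.mk_surjective (γ : F)
  obtain ⟨b, hb⟩ := Ideal.Quotient.mk_surjective ((γ⁻¹ : Fˣ) : F)
  have ha' : π a = γ := ha
  refine ⟨a, ?_, fun i => ?_, fun x ⟨u, v, e⟩ => ?_⟩
  · obtain ⟨t, e⟩ := (z (1 - b * a)).1 (by
      rw [map_sub, map_mul, map_one, ha', show π b = _ from hb, Units.inv_mul, sub_self])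
    exact ⟨b, t, by linear_combination -e⟩
  · rw [r, map_pow, ha', ← Units.val_pow_eq_pow_val, ← Units.val_pow_eq_pow_val, Units.val_inj,
      ← Nat.mul_dvd_mul_iff_right (Nat.sub_pos_of_lt hl.one_lt), ← o, orderOf_dvd_iff_pow_eq_one,
      pow_mul, ← mul_left_inj (γ ^ i) (b := (γ ^ i) ^ (l - 1)), ← pow_succ,
      Nat.sub_add_cancel hl.one_lt.le, one_mul]
  · have e1 : π u * π x = 1 := by
      simpa [(z l).2 dvd_rfl] using congrArg π e
    obtain ⟨i, hi⟩ := hγ (Units.mkOfMulEqOne _ _ e1)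
    refine ⟨i, (r _).2 ?_⟩
    rw [map_mul, map_pow, ha', ← Units.val_pow_eq_pow_val, show γ ^ i = _ from hi,
      Units.val_mkOfMulEqOne, e1, one_pow]

theorem ex_pi (hl : l.Prime) {I : Ideal (𝓞 K)} (h : I.absNorm = l) :
    ∃ π : 𝓞 K →+* ZMod l, ∀ x, π x = 0 ↔ x ∈ I := by
  have hc : Nat.card (𝓞 K ⧸ I) = l := h
  have : Finite (𝓞 K ⧸ I) := Nat.finite_of_card_ne_zero (hc ▸ hl.ne_zero)
  have := Fintype.ofFinite (𝓞 K ⧸ I)
  let e := ZMod.ringEquivOfPrime (𝓞 K ⧸ I) hl (Nat.card_eq_fintype_card.symm.trans hc)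
  exact ⟨e.symm.toRingHom.comp (Ideal.Quotient.mk I), fun x =>
    (map_eq_zero_iff e.symm e.symm.injective).trans Ideal.Quotient.eq_zero_iff_mem⟩

theorem cyc_sp (h : Iq K) (hl : l.Prime) {I I' : Ideal (𝓞 K)} (h1 : I ⊔ I' = ⊤) (h2 : I ≠ ⊤)
    (h3 : I' ≠ ⊤) (h4 : I * I' = Ideal.span {(l : 𝓞 K)}) : ∃ a : 𝓞 K, Cg l (l - 1) a := by
  have := Fact.mk hl
  obtain ⟨n1, n2⟩ := (hl.mul_eq_prime_sq_iff (mt Ideal.absNorm_eq_one_iff.1 h2)
    (mt Ideal.absNorm_eq_one_iff.1 h3)).1 (by rw [← map_mul, h4, nm_l h])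
  obtain ⟨π, p1⟩ := ex_pi hl n1
  obtain ⟨π', p2⟩ := ex_pi hl n2
  have z : ∀ x, (l : 𝓞 K) ∣ x ↔ π x = 0 ∧ π' x = 0 := fun x => by
    rw [← Ideal.mem_span_singleton, ← h4, Ideal.mul_eq_inf_of_coprime h1, p1, p2]
    rfl
  have r : ∀ x, Rc l x ↔ π x = π' x := fun x => by
    simp only [rc_dvd, z, map_sub, map_intCast, sub_eq_zero]
    refine ⟨fun ⟨k, a, b⟩ => a.trans b.symm, fun e => ?_⟩
    obtain ⟨k, a⟩ := ZMod.intCast_surjective (π x)
    exact ⟨k, a.symm, e.symm.trans a.symm⟩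
  obtain ⟨e, he, e', he', s⟩ := Submodule.mem_sup.1 (h1 ▸ Submodule.mem_top : (1 : 𝓞 K) ∈ _)
  have a1 := (p1 e).2 he
  have a2 := (p2 e').2 he'
  have a3 : π e' = 1 := by simpa [a1] using congrArg π s
  have a4 : π' e = 1 := by simpa [a2] using congrArg π' s
  have t : ∀ y : ZMod l, ∃ a, π a = y ∧ π' a = 1 := fun y => by
    obtain ⟨k, rfl⟩ := ZMod.intCast_surjective y
    exact ⟨k * e' + e, by simp [a1, a3], by simp [a2, a4]⟩
  obtain ⟨γ, hγ⟩ := IsCyclic.exists_monoid_generator (α := (ZMod l)ˣ)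
  have o : orderOf γ = l - 1 := by
    rw [orderOf_eq_card_of_forall_mem_powers hγ, Nat.card_units, Nat.card_zmod]
  obtain ⟨a, b1, b2⟩ := t γ
  obtain ⟨b, b3, b4⟩ := t (γ⁻¹ : (ZMod l)ˣ)
  refine ⟨a, ?_, fun i => ?_, fun x ⟨u, v, k⟩ => ?_⟩
  · obtain ⟨t, e⟩ := (z (1 - b * a)).2 ⟨by rw [map_sub, map_mul, map_one, b1, b3, Units.inv_mul,
      sub_self], by simp [b2, b4]⟩
    exact ⟨b, t, by linear_combination -e⟩
  · rw [r, map_pow, map_pow, b1, b2, one_pow, ← o, orderOf_dvd_iff_pow_eq_one,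
      ← Units.val_pow_eq_pow_val, Units.val_eq_one]
  · have e1 : π u * π x = 1 := by simpa using congrArg π k
    have e2 : π' x * π' u = 1 := by simpa [mul_comm] using congrArg π' k
    obtain ⟨i, hi⟩ := hγ (Units.mkOfMulEqOne _ _ e2 * Units.mkOfMulEqOne _ _ e1)
    refine ⟨i, (r _).2 ?_⟩
    rw [map_mul, map_pow, map_mul, map_pow, b1, b2, one_pow, one_mul, ← Units.val_pow_eq_pow_val,
      show γ ^ i = _ from hi, Units.val_mul, Units.val_mkOfMulEqOne, Units.val_mkOfMulEqOne,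
      mul_assoc, e1, mul_one]

end Vale.Agent.P004K.Rc
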