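import Vale.Agent.P004K.Bas

/-! # P004K, block RC: quadratic orders and the operator `st` -/

set_option autoImplicit false
set_option linter.all false

open scoped ComplexConjugate

noncomputable section

namespace Vale.Agent.P004K.Rc

open P027H

variable {O : Type} [CommRing O] {J : O →+* ℂ} {ω : O} {s : O →+* O} {c : ℕ}
  {Λ Λ' : Submodule ℤ ℂ} {I I' : Ideal O}

/-- an integral basis and the conjugation -/
structure Qd (J : O →+* ℂ) (ω : O) (s : O →+* O) : Prop where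
  inj : Function.Injective J
  sp : ∀ a : O, ∃ u v : ℤ, a = u + v * ω
  im : 0 < (J ω).im
  cj : ∀ a, J (s a) = conj (J a)

theorem ex_qd (h1 : Function.Injective J) (h2 : ∀ a : O, ∃ u v : ℤ, a = u + v * ω)
    (h3 : 0 < (J ω).im) : ∃ s, Qd J ω s := by
  obtain ⟨m, t, e⟩ := h2 (ω * ω)
  have e1 := congrArg J e
  simp only [map_mul, map_add, map_intCast] at e1
  have e2 : conj (J ω) = t - J ω := by
    have a := congrArg Complex.im e1
    simp only [Complex.mul_im, Complex.add_im, Complex.intCast_im, Complex.intCast_re, zero_mul,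
      add_zero, zero_add] at a
    refine Complex.ext ?_ (by simp)
    simp only [Complex.conj_re, Complex.sub_re, Complex.intCast_re]
    exact mul_right_cancel₀ h3.ne' (by linear_combination a)
  have k : ∀ a, ∃ a', J a' = conj (J a) := fun a => by
    obtain ⟨u, v, rfl⟩ := h2 a
    exact ⟨u + v * (t - ω), by simp [e2]⟩
  choose f hf using k
  exact ⟨{ toFun := f
           map_one' := h1 (by simp [hf])
           map_mul' := fun a b => h1 (by simp [hf])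
           map_zero' := h1 (by simp [hf])
           map_add' := fun a b => h1 (by simp [hf]) }, h1, h2, h3, hf⟩

/-- the order of conductor `c` -/
def Rc (c : ℕ) (a : O) : Prop := ∃ (k : ℤ) (b : O), a = k + c * b

theorem Rc.int (c : ℕ) (k : ℤ) : Rc c (k : O) := ⟨k, 0, by simp⟩

theorem Rc.cm (c : ℕ) (b : O) : Rc c (c * b) := ⟨0, b, by simp⟩

theorem Rc.mul {a b : O} (ha : Rc c a) (hb : Rc c b) : Rc c (a * b) := by
  obtain ⟨k, x, rfl⟩ := ha
  obtain ⟨l, y, rfl⟩ := hb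
  exact ⟨k * l, k * y + x * l + c * x * y, by push_cast; ring⟩

theorem Rc.neg {a : O} (ha : Rc c a) : Rc c (-a) := by
  obtain ⟨k, x, rfl⟩ := ha
  exact ⟨-k, -x, by push_cast; ring⟩

theorem mem_Oc {z : ℂ} : z ∈ Oc J c ↔ ∃ a, Rc c a ∧ J a = z :=
  ⟨fun ⟨k, b, e⟩ => ⟨_, ⟨k, b, rfl⟩, by rw [e]; simp⟩,
    fun ⟨_, ⟨k, b, rfl⟩, e⟩ => ⟨k, b, by rw [← e]; simp⟩⟩

theorem one_mem_Oc : (1 : ℂ) ∈ Oc J c := ⟨1, 0, by simp⟩

theorem Rc.oc {a : O} (ha : Rc c a) {z : ℂ} (hz : z ∈ Oc J c) : J a * z ∈ Oc J c := by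
  obtain ⟨b, hb, rfl⟩ := mem_Oc.1 hz
  exact mem_Oc.2 ⟨_, ha.mul hb, map_mul _ _ _⟩

theorem Rc.kl {a : O} (ha : Rc c a) (h : KL J c Λ) {z : ℂ} (hz : z ∈ Λ) : J a * z ∈ Λ := by
  obtain ⟨k, b, rfl⟩ := ha
  exact mem_of_eq (add_mem (int_mul_mem k hz) (h.mul b z hz)) (by simp [add_mul])

theorem end_quad (h : IsLat Λ) {z : ℂ} (hz : ∀ w ∈ Λ, z * w ∈ Λ) :
    ∃ t d : ℤ, z ^ 2 = t * z - d := by
  obtain ⟨L, rfl⟩ := h
  obtain ⟨a, b, e⟩ := PeriodPair.mem_lattice.1 (hz _ L.ω₁_mem_lattice)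
  obtain ⟨a', b', e'⟩ := PeriodPair.mem_lattice.1 (hz _ L.ω₂_mem_lattice)
  refine ⟨a + b', a * b' - b * a', mul_right_cancel₀ (L.indep.ne_zero 0 : L.ω₁ ≠ 0) ?_⟩
  push_cast
  linear_combination (b' - z) * e - b * e'

theorem rep_cop (a b d : ℤ) {N : ℕ} (hN : N ≠ 0)
    (h : ∀ p : ℕ, p.Prime → (p : ℤ) ∣ a → (p : ℤ) ∣ b → ¬ (p : ℤ) ∣ d) :
    ∃ x y : ℤ, IsCoprime (a * x ^ 2 + b * x * y + d * y ^ 2) N := by
  classical
  have k : ∀ (Q : ℕ → Prop) (p : ℕ), p.Prime → p ∣ N →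
      ((p : ℤ) ∣ ∏ q ∈ N.primeFactors.filter Q, (q : ℤ) ↔ Q p) := fun Q p hp hd => by
    rw [(Nat.prime_iff_prime_int.1 hp).dvd_finset_prod_iff]
    constructor
    · rintro ⟨q, h1, h2⟩
      rw [Finset.mem_filter] at h1
      rw [(Nat.prime_dvd_prime_iff_eq hp (Nat.prime_of_mem_primeFactors h1.1)).1
        (Int.natCast_dvd_natCast.1 h2)]
      exact h1.2
    · exact fun q => ⟨p, Finset.mem_filter.2 ⟨Nat.mem_primeFactors.2 ⟨hp, hd, hN⟩, q⟩, dvd_rfl⟩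
  obtain ⟨x, hx⟩ : ∃ x : ℤ, ∀ p : ℕ, p.Prime → p ∣ N → ((p : ℤ) ∣ x ↔ (p : ℤ) ∣ a ∧ ¬ (p : ℤ) ∣ d) :=
    ⟨_, k _⟩
  obtain ⟨y, hy⟩ : ∃ y : ℤ, ∀ p : ℕ, p.Prime → p ∣ N → ((p : ℤ) ∣ y ↔ ¬ (p : ℤ) ∣ a) := ⟨_, k _⟩
  refine ⟨x, y, Int.isCoprime_iff_gcd_eq_one.2 (Nat.eq_one_iff_not_exists_prime_dvd.2
    fun p hp hd => ?_)⟩
  have p1 := Nat.prime_iff_prime_int.1 hp
  have d1 := (Int.natCast_dvd_natCast.2 hd).trans (Int.gcd_dvd_left _ _)
  have d2 := Int.natCast_dvd_natCast.1 ((Int.natCast_dvd_natCast.2 hd).trans (Int.gcd_dvd_right _ _))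
  have x1 := hx p hp d2
  have y1 := hy p hp d2
  by_cases ha : (p : ℤ) ∣ a
  · have y2 := mt y1.1 (not_not.2 ha)
    rw [add_assoc, dvd_add_right (ha.mul_right _)] at d1
    by_cases hd' : (p : ℤ) ∣ d
    · rw [dvd_add_left (hd'.mul_right _), p1.dvd_mul, p1.dvd_mul] at d1
      rcases d1 with (e | e) | e
      exacts [h p hp ha e hd', (x1.1 e).2 hd', y2 e]
    · rw [dvd_add_right (((x1.2 ⟨ha, hd'⟩).mul_left _).mul_right _), p1.dvd_mul] at d1
      exact d1.elim hd' fun e => y2 (p1.dvd_of_dvd_pow e)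
  · have y2 := y1.2 ha
    rw [dvd_add_left ((dvd_pow y2 two_ne_zero).mul_left _), dvd_add_left (y2.mul_left _),
      p1.dvd_mul] at d1
    exact d1.elim ha fun e => ha (x1.1 (p1.dvd_of_dvd_pow e)).1

/-! ### ideals prime to `c` -/

theorem cop_ex (h : Cop c I) : ∃ u ∈ I, ∃ b, u + c * b = 1 := by
  obtain ⟨u, hu, v, hv, e⟩ := Submodule.mem_sup.1 (h.2 ▸ Submodule.mem_top : (1 : O) ∈ _)
  obtain ⟨b, rfl⟩ := Ideal.mem_span_singleton.1 hv
  exact ⟨u, hu, b, e⟩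

theorem cop_of (h0 : I ≠ ⊥) {u b : O} (hu : u ∈ I) (e : u + c * b = 1) : Cop c I :=
  ⟨h0, (Ideal.eq_top_iff_one _).2 (e ▸ Submodule.add_mem_sup hu
    (Ideal.mul_mem_right _ _ (Ideal.mem_span_singleton_self _)))⟩

theorem cop_mono (h : Cop c I) (hle : I ≤ I') : Cop c I' :=
  let ⟨_, hu, _, e⟩ := cop_ex h
  cop_of (fun k => h.1 (le_bot_iff.1 (k ▸ hle))) (hle hu) e

theorem cop_dvd {m : ℕ} (h : Cop (c * m) I) : Cop c I :=
  let ⟨_, hu, b, e⟩ := cop_ex h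
  cop_of h.1 hu (b := m * b) (by rw [← e]; push_cast; ring)

theorem cop_mul [IsDomain O] (h : Cop c I) (h' : Cop c I') : Cop c (I * I') :=
  let ⟨u, hu, b, e⟩ := cop_ex h
  let ⟨u', hu', b', e'⟩ := cop_ex h'
  cop_of (mul_ne_zero h.1 h'.1) (Ideal.mul_mem_mul hu hu') (b := b + u * b')
    (by linear_combination e + u * e')

theorem cop_top [Nontrivial O] : Cop c (⊤ : Ideal O) := ⟨top_ne_bot, top_sup_eq _⟩

theorem rc_u {u b : O} (e : u + c * b = 1) : Rc c u := ⟨1, -b, by push_cast; linear_combination e⟩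

theorem sp_le (h : Cop c I) {x : O} (hx : ∀ a ∈ I, Rc c a → x * a ∈ I') {a : O} (ha : a ∈ I) :
    x * a ∈ I' := by
  obtain ⟨u, hu, b, e⟩ := cop_ex h
  have := I'.add_mem (I'.mul_mem_left a (hx u hu (rc_u e)))
    (I'.mul_mem_left b (hx _ (I.mul_mem_left c ha) (Rc.cm c a)))
  rwa [show a * (x * u) + b * (x * (c * a)) = x * a by linear_combination x * a * e] at this

/-! ### the operator `st` -/

theorem mem_st0 {z : ℂ} : z ∈ st J I Λ ↔ ∀ a ∈ I, (∀ w ∈ Λ, J a * w ∈ Λ) → J a * z ∈ Λ := Iff.rfl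

theorem le_st : Λ ≤ st J I Λ := fun z hz _ _ h => h z hz

theorem mem_st (h : KL J c Λ) {u b : O} (hu : u ∈ I) (e : u + c * b = 1) {z : ℂ} :
    z ∈ st J I Λ ↔ J u * z ∈ Λ ∧ ∀ a ∈ I, J (c * a) * z ∈ Λ := by
  refine ⟨fun k => ⟨k u hu fun w => (rc_u e).kl h, fun a ha => k _ (I.mul_mem_left _ ha) (h.mul a)⟩,
    fun k a ha ea => mem_of_eq (add_mem (ea _ k.1) (k.2 _ (I.mul_mem_left b ha))) ?_⟩
  have := congrArg J e
  simp only [map_add, map_mul, map_one] at this ⊢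
  linear_combination -(J a * z) * this

theorem lat_st (h : IsLat Λ) {n : ℤ} (h0 : n ≠ 0) (hn : (n : O) ∈ I) : IsLat (st J I Λ) := by
  refine h.of_between le_st (n := n.natAbs ^ 2) (pow_pos (Int.natAbs_pos.2 h0) 2) fun z hz => ?_
  have := hz _ hn fun w hw => by rw [map_intCast]; exact int_mul_mem n hw
  rw [map_intCast] at this
  rw [← Int.cast_natCast, Nat.cast_pow, Int.natAbs_sq]
  exact mem_of_eq (int_mul_mem n this) (by push_cast; ring)

theorem end_st {a : O} (ha : ∀ w ∈ Λ, J a * w ∈ Λ) : ∀ w ∈ st J I Λ, J a * w ∈ st J I Λ :=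
  fun w hw x hx e => mem_of_eq (ha _ (hw x hx e)) (by ring)

theorem kl_st (h : KL J c Λ) {n : ℤ} (h0 : n ≠ 0) (hn : (n : O) ∈ I) : KL J c (st J I Λ) :=
  ⟨lat_st h.lat h0 hn, fun a => end_st (h.mul a)⟩

theorem st_top : st J ⊤ Λ = Λ := le_antisymm (fun z hz => by
  simpa using hz 1 trivial (by simp)) le_st

theorem st_mul (h : KL J c Λ) (h' : KL J c (st J I' Λ)) (hI : Cop c I) (hI' : Cop c I') :
    st J I (st J I' Λ) = st J (I * I') Λ := by
  obtain ⟨u, hu, b, e⟩ := cop_ex hI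
  obtain ⟨u', hu', b', e'⟩ := cop_ex hI'
  ext z
  rw [mem_st h' hu e, mem_st h (Ideal.mul_mem_mul hu hu') (b := b + u * b')
    (by linear_combination e + u * e')]
  simp only [mem_st h hu' e', ← mul_assoc, ← map_mul]
  constructor
  · rintro ⟨⟨k1, k2⟩, k3⟩
    refine ⟨by rwa [mul_comm u], fun a ha => Submodule.mul_induction_on ha (fun x hx y hy => ?_)
      fun x y hx hy => by rw [mul_add, map_add, add_mul]; exact add_mem hx hy⟩
    have := add_mem (k2 _ (I'.mul_mem_left x hy)) ((k3 _ (I.mul_mem_left b hx)).2 y hy)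
    rwa [← add_mul, ← map_add, show c * (x * y) * u + c * y * c * (b * x) = c * (x * y) by
      linear_combination c * x * y * e] at this
  · rintro ⟨k1, k2⟩
    refine ⟨⟨by rwa [mul_comm u'], fun a ha => ?_⟩, fun a ha => ⟨?_, fun a' ha' => ?_⟩⟩
    · rw [mul_assoc (c : O), mul_comm a]
      exact k2 _ (Ideal.mul_mem_mul hu ha)
    · rw [show u' * c * a = c * (a * u') by ring]
      exact k2 _ (Ideal.mul_mem_mul ha hu')
    · rw [show c * a' * c * a = c * (c * a * a') by ring]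
      exact k2 _ (Ideal.mul_mem_mul (I.mul_mem_left _ ha) ha')

theorem hom_end {μ : ℂ} (h : Hom μ Λ Λ') (x : ℂ) :
    (∀ w ∈ Λ, x * w ∈ Λ) ↔ ∀ w ∈ Λ', x * w ∈ Λ' :=
  ⟨fun k w hw => (h.symm.2 _).2 (mem_of_eq (k _ ((h.symm.2 _).1 hw)) (by ring)),
    fun k w hw => (h.2 _).2 (mem_of_eq (k _ ((h.2 _).1 hw)) (by ring))⟩

theorem hom_st {μ : ℂ} (h : Hom μ Λ Λ') (I : Ideal O) : Hom μ (st J I Λ) (st J I Λ') :=
  ⟨h.1, fun z => forall₂_congr fun a _ => imp_congr (hom_end h _) (by rw [h.2, mul_left_comm])⟩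

theorem hom_kl {μ : ℂ} (h : Hom μ Λ Λ') (k : KL J c Λ) : KL J c Λ' :=
  ⟨h.isLat k.lat, fun a => (hom_end h _).1 (k.mul a)⟩

theorem tp_st {σ : ℂ ≃+* ℂ} {ψ : ℂ → ℂ} (h : Tp σ Λ Λ' ψ) (hσ : ∀ a, σ (J a) = J a)
    (hl : IsLat (st J I Λ)) : Tp σ (st J I Λ) (st J I Λ') ψ := by
  refine h.sup' le_st hl le_st fun z => forall₂_congr fun a _ => ?_
  have e := h.cm_iff (c := J a)
  rw [hσ] at e
  rw [e]
  refine imp_congr_right fun k => ?_
  have e2 := (h.cm k).2 z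
  rw [hσ] at e2
  rw [← h.mem]
  exact ⟨fun t => mem_of_eq (add_mem e2 t) (by ring), fun t => mem_of_eq (sub_mem t e2) (by ring)⟩

namespace Qd

variable (q : Qd J ω s)
include q

theorem ext {u v u' v' : ℤ} (h : (u + v * ω : O) = u' + v' * ω) : u = u' ∧ v = v' := by
  have e := congrArg J h
  simp only [map_add, map_mul, map_intCast] at e
  have a := congrArg Complex.im e
  simp only [Complex.mul_im, Complex.add_im, Complex.intCast_im, Complex.intCast_re, zero_mul,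
    add_zero, zero_add] at a
  obtain rfl : v = v' := by exact_mod_cast mul_right_cancel₀ q.im.ne' a
  exact ⟨by exact_mod_cast add_right_cancel e, rfl⟩

theorem ss (a : O) : s (s a) = a := q.inj (by rw [q.cj, q.cj, Complex.conj_conj])

theorem int_of {a : O} (h : s a = a) : ∃ k : ℤ, a = k := by
  obtain ⟨u, v, rfl⟩ := q.sp a
  have e := q.cj (u + v * ω)
  rw [h] at e
  have a := Complex.conj_eq_iff_im.1 e.symm
  simp only [map_add, map_mul, map_intCast, Complex.mul_im, Complex.add_im, Complex.intCast_im,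
    Complex.intCast_re, zero_mul, add_zero, zero_add, mul_eq_zero, q.im.ne', or_false] at a
  exact ⟨u, by rw [Int.cast_eq_zero.1 a]; simp⟩

theorem nm (a : O) : ∃ k : ℤ, a * s a = k := q.int_of (by rw [map_mul, q.ss, mul_comm])

theorem tr (a : O) : ∃ k : ℤ, a + s a = k := q.int_of (by rw [map_add, q.ss, add_comm])

theorem cast_inj {k l : ℤ} (h : (k : O) = l) : k = l := (q.ext (v := 0) (v' := 0) (by simp [h])).1

theorem J_ne {a : O} (h : a ≠ 0) : J a ≠ 0 := (map_ne_zero_iff J q.inj).2 h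

theorem rc_iff {u v : ℤ} : Rc c (u + v * ω : O) ↔ (c : ℤ) ∣ v := by
  constructor
  · rintro ⟨k, b, e⟩
    obtain ⟨x, y, rfl⟩ := q.sp b
    exact ⟨y, (q.ext (u' := k + c * x) (by rw [e]; push_cast; ring)).2⟩
  · rintro ⟨y, rfl⟩
    exact ⟨u, y * ω, by push_cast; ring⟩

theorem J_mem {a : O} : J a ∈ Oc J c ↔ Rc c a :=
  ⟨fun h => let ⟨_, hb, e⟩ := mem_Oc.1 h; q.inj e ▸ hb, fun h => mem_Oc.2 ⟨a, h, rfl⟩⟩

theorem end_Oc {a : O} : (∀ w ∈ Oc J c, J a * w ∈ Oc J c) ↔ Rc c a :=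
  ⟨fun h => q.J_mem.1 (by simpa using h 1 one_mem_Oc), fun h _ => h.oc⟩

theorem dvd_int {n k : ℤ} (h : (n : O) ∣ k) : n ∣ k := by
  obtain ⟨a, e⟩ := h
  obtain ⟨u, v, rfl⟩ := q.sp a
  exact ⟨u, (q.ext (v := 0) (v' := n * v) (by simp only [e]; push_cast; ring)).1⟩

theorem cop_int {k : ℤ} {b : O} (h : Cop c (Ideal.span {k + c * b})) : IsCoprime k (c : ℤ) := by
  obtain ⟨u, hu, d, e⟩ := cop_ex h
  obtain ⟨x, rfl⟩ := Ideal.mem_span_singleton.1 hu
  obtain ⟨u, v, rfl⟩ := q.sp x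
  obtain ⟨u', v', e'⟩ := q.sp (b * (u + v * ω) + d)
  exact ⟨u, u', (q.ext (v := k * v + c * v') (u' := 1) (v' := 0) (by
    push_cast; linear_combination e - c * e')).1⟩

theorem oc_eq (hc : 0 < c) : ∃ τ : UpperHalfPlane, (τ : ℂ) = c * J ω ∧ Oc J c = P027M.M.lat τ := by
  refine ⟨⟨c * J ω, by simpa using mul_pos (Nat.cast_pos.2 hc) q.im⟩, rfl, ?_⟩
  ext z
  rw [P027M.M.mem_lat]
  constructor
  · rintro ⟨k, a, rfl⟩
    obtain ⟨u, v, rfl⟩ := q.sp a
    exact ⟨v, k + c * u, by simp; ring⟩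
  · rintro ⟨m, n, rfl⟩
    exact ⟨n, m * ω, by simp; ring⟩

theorem kl_Oc (hc : 0 < c) : KL J c (Oc J c) :=
  ⟨let ⟨τ, _, e⟩ := q.oc_eq hc; e ▸ P027M.M.isLat τ, fun a _ => (Rc.cm c a).oc⟩

theorem mem_cj {a : O} : a ∈ I.comap s ↔ s a ∈ I := Iff.rfl

theorem cop_cj (h : Cop c I) : Cop c (I.comap s) := by
  obtain ⟨u, hu, b, e⟩ := cop_ex h
  obtain ⟨a, ha, a0⟩ := Submodule.exists_mem_ne_zero_of_ne_bot h.1
  refine cop_of (u := s u) (b := s b) (fun k => a0 ?_) (by rw [q.mem_cj, q.ss]; exact hu)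
    (by simpa using congrArg s e)
  have : s a ∈ I.comap s := by rw [q.mem_cj, q.ss]; exact ha
  rw [k, Ideal.mem_bot] at this
  rw [← q.ss a, this, map_zero]

theorem ex_int (h : I ≠ ⊥) : ∃ n : ℤ, n ≠ 0 ∧ (n : O) ∈ I := by
  obtain ⟨a, ha, a0⟩ := Submodule.exists_mem_ne_zero_of_ne_bot h
  obtain ⟨k, e⟩ := q.nm a
  refine ⟨k, fun k0 => ?_, e ▸ I.mul_mem_right _ ha⟩
  have := congrArg J e
  rw [k0, map_mul, q.cj, Int.cast_zero, map_zero, mul_eq_zero] at this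
  exact q.J_ne a0 (by simpa using this)

theorem kl_st (h : KL J c Λ) (hI : I ≠ ⊥) : KL J c (st J I Λ) :=
  let ⟨_, h0, hn⟩ := q.ex_int hI
  Rc.kl_st h h0 hn

theorem st_mul (h : KL J c Λ) (hI : Cop c I) (hI' : Cop c I') :
    st J I (st J I' Λ) = st J (I * I') Λ := Rc.st_mul h (q.kl_st h hI'.1) hI hI'

theorem st_span (h : KL J c Λ) {a : O} (ha : Rc c a) (hc : Cop c (Ideal.span {a})) :
    Hom (J a) (st J (Ideal.span {a}) Λ) Λ := by
  refine ⟨q.J_ne fun k => hc.1 (by simp [k]), fun z => ⟨fun k => k a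
    (Ideal.mem_span_singleton_self a) fun w => ha.kl h, fun k => ?_⟩⟩
  obtain ⟨l, b, rfl⟩ := ha
  obtain ⟨x, y, e⟩ := q.cop_int hc
  have e' : (x : O) * l + y * c = 1 := by exact_mod_cast congrArg (Int.cast : ℤ → O) e
  refine (mem_st h (u := x * (l + c * b)) (b := y - x * b)
    (Ideal.mul_mem_left _ _ (Ideal.mem_span_singleton_self _)) (by linear_combination e')).2
    ⟨mem_of_eq (int_mul_mem x k) (by rw [map_mul, map_intCast, mul_assoc]), fun v hv => ?_⟩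
  obtain ⟨t, rfl⟩ := Ideal.mem_span_singleton'.1 hv
  exact mem_of_eq (h.mul t _ k) (by rw [← mul_assoc, map_mul, mul_assoc])

theorem cj_Oc : cjL (Oc J c) = Oc J c := by
  have k : ∀ z ∈ Oc J c, conj z ∈ Oc J c := by
    rintro _ ⟨k, a, rfl⟩
    exact ⟨k, s a, by simp [q.cj]⟩
  ext z
  exact ⟨fun h => by simpa using k _ h, k z⟩

theorem cj_st : cjL (st J I Λ) = st J (I.comap s) (cjL Λ) := by
  have k : ∀ a, (∀ w ∈ Λ, J (s a) * w ∈ Λ) ↔ ∀ w ∈ cjL Λ, J a * w ∈ cjL Λ := fun a =>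
    ⟨fun h w hw => by rw [mem_cjL, map_mul, ← q.cj]; exact h _ hw, fun h w hw => by
      simpa [mem_cjL, q.cj] using h (conj w) (by simpa [mem_cjL] using hw)⟩
  ext z
  constructor
  · intro h a ha e
    rw [mem_cjL, map_mul, ← q.cj]
    exact h _ ha ((k a).2 e)
  · intro h a ha e
    have := h (s a) (by rw [q.mem_cj, q.ss]; exact ha) ((k _).1 (by rwa [q.ss]))
    rwa [mem_cjL, map_mul, ← q.cj, q.ss] at this

/-- change of the conductor -/
theorem st_cond (hc : 0 < c) {m : ℕ} (hm : 0 < m) :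
    st J (Ideal.span {(m : O)}) (Oc J (c * m)) = Oc J c := by
  have m0 : (m : ℂ) ≠ 0 := Nat.cast_ne_zero.2 hm.ne'
  have m1 : (m : ℤ) ≠ 0 := Nat.cast_ne_zero.2 hm.ne'
  ext z
  constructor
  · intro h
    obtain ⟨k, b, e⟩ := h m (Ideal.mem_span_singleton_self _) (q.end_Oc.2 ⟨m, 0, by simp⟩)
    have h2 := h (m * (c * ω)) (Ideal.mul_mem_right _ _ (Ideal.mem_span_singleton_self _))
      (q.end_Oc.2 ⟨0, ω, by push_cast; ring⟩)
    rw [map_natCast] at e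
    rw [show J (m * (c * ω)) * z = J ((0 : ℤ) + (k * c : ℤ) * ω) + (c * m : ℕ) * J (c * ω * b) by
      simp only [map_mul, map_add, map_natCast, map_intCast]
      push_cast at e ⊢
      linear_combination c * J ω * e] at h2
    have h3 := q.rc_iff.1 (q.J_mem.1 (mem_of_eq (sub_mem h2 ⟨0, c * ω * b, by simp⟩)
      (add_sub_cancel_right _ _).symm))
    push_cast at h3
    rw [mul_comm k, mul_dvd_mul_iff_left (Nat.cast_ne_zero.2 hc.ne')] at h3
    obtain ⟨l, rfl⟩ := h3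
    exact ⟨l, b, mul_left_cancel₀ m0 (by rw [e]; push_cast; ring)⟩
  · rintro hz a ha e
    obtain ⟨t, rfl⟩ := Ideal.mem_span_singleton.1 ha
    obtain ⟨u, v, rfl⟩ := q.sp t
    have h3 := q.end_Oc.1 e
    rw [show (m * (u + v * ω) : O) = (m * u : ℤ) + (m * v : ℤ) * ω by push_cast; ring,
      q.rc_iff, Nat.cast_mul, mul_comm, mul_dvd_mul_iff_left m1] at h3
    obtain ⟨k, b, e⟩ := ((q.rc_iff (u := u)).2 h3).oc hz
    exact ⟨m * k, b, by rw [map_mul, mul_assoc, e]; simp; ring⟩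

variable [IsDomain O] [IsIntegrallyClosed O]

omit q in
theorem quad_dvd {x n t d : O} (hn : n ≠ 0) (h : x ^ 2 = t * n * x - d * n ^ 2) : n ∣ x := by
  let F := FractionRing O
  have n0 : algebraMap O F n ≠ 0 := (map_ne_zero_iff _ (IsFractionRing.injective O F)).2 hn
  have h1 := congrArg (algebraMap O F) h
  simp only [map_pow, map_mul, map_sub] at h1
  have h2 : IsIntegral O (algebraMap O F x / algebraMap O F n) :=
    ⟨Polynomial.X ^ 2 - (Polynomial.C t * Polynomial.X - Polynomial.C d),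
      Polynomial.monic_X_pow_sub (by compute_degree!), by
        simp only [Polynomial.eval₂_sub, Polynomial.eval₂_mul, Polynomial.eval₂_X_pow,
          Polynomial.eval₂_C, Polynomial.eval₂_X]
        have h3 := div_mul_cancel₀ (algebraMap O F x) n0
        generalize algebraMap O F x / algebraMap O F n = y at h3
        rw [← h3] at h1
        exact mul_right_cancel₀ (pow_ne_zero 2 n0) (by linear_combination h1)⟩
  obtain ⟨y, e⟩ := IsIntegrallyClosed.isIntegral_iff.1 h2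
  exact ⟨y, IsFractionRing.injective O F (by rw [map_mul, e, mul_div_cancel₀ _ n0])⟩

theorem end_int (h : IsLat Λ) {z : ℂ} (hz : ∀ w ∈ Λ, z * w ∈ Λ) {n : ℤ} (hn : n ≠ 0) {x : O}
    (e : J x = n * z) : ∃ y, J y = z := by
  obtain ⟨t, d, k⟩ := end_quad h hz
  obtain ⟨y, rfl⟩ := quad_dvd (x := x) (n := n) (t := t) (d := d)
    (fun k => hn (q.cast_inj (by simpa using k))) (q.inj (by
      simp only [map_pow, map_mul, map_sub, map_intCast, e]
      linear_combination (n : ℂ) ^ 2 * k))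
  rw [map_mul, map_intCast] at e
  exact ⟨y, mul_left_cancel₀ (Int.cast_ne_zero.2 hn) e⟩

theorem mul_cj (h : I ≠ ⊥) : ∃ n : ℤ, n ≠ 0 ∧ I * I.comap s = Ideal.span {(n : O)} := by
  obtain ⟨n, hn⟩ := (IsPrincipalIdealRing.principal
    ((I * I.comap s).comap (Int.castRingHom O))).principal
  have k : ∀ l : ℤ, (l : O) ∈ I * I.comap s ↔ n ∣ l := fun l => by
    rw [← Ideal.mem_span_singleton, ← Ideal.submodule_span_eq, ← hn]
    rfl
  have m : ∀ a ∈ I, ∀ b ∈ I, a * s b ∈ I * I.comap s := fun a ha b hb =>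
    Ideal.mul_mem_mul ha (by rw [q.mem_cj, q.ss]; exact hb)
  have n0 : n ≠ 0 := by
    obtain ⟨l, l0, hl⟩ := q.ex_int h
    rintro rfl
    have := (k (l * l)).1 (by simpa using m _ hl _ hl)
    exact mul_ne_zero l0 l0 (zero_dvd_iff.1 this)
  refine ⟨n, n0, le_antisymm (Ideal.mul_le.2 fun a ha b hb => Ideal.mem_span_singleton.2 ?_)
    ((Ideal.span_singleton_le_iff_mem _).2 ((k n).2 dvd_rfl))⟩
  obtain ⟨x, e1⟩ := q.nm a
  obtain ⟨y, e2⟩ := q.nm (s b)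
  obtain ⟨t, e3⟩ := q.tr (a * b)
  obtain ⟨x, rfl⟩ := (k x).1 (e1 ▸ m a ha a ha)
  obtain ⟨y, rfl⟩ := (k y).1 (e2 ▸ m _ hb _ hb)
  obtain ⟨t, rfl⟩ := (k t).1 (e3 ▸ add_mem (Ideal.mul_mem_mul ha hb)
    (by rw [map_mul, mul_comm (s a)]; exact m _ hb a ha))
  rw [q.ss] at e2
  rw [map_mul] at e3
  push_cast at e1 e2 e3
  exact quad_dvd (t := t) (d := x * y) (fun k => n0 (q.cast_inj (by simpa using k)))
    (by linear_combination a * b * e3 - s b * b * e1 - n * x * e2)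

/-- the inverse of `st I` -/
theorem st_inv (h : KL J c Λ) (hI : Cop c I) : ∃ n : ℤ, n ≠ 0 ∧
    I * I.comap s = Ideal.span {(n : O)} ∧ Hom n (st J (I.comap s) (st J I Λ)) Λ := by
  obtain ⟨n, n0, e⟩ := q.mul_cj hI.1
  refine ⟨n, n0, e, ?_⟩
  rw [q.st_mul h (q.cop_cj hI) hI, mul_comm, e, ← map_intCast J]
  exact q.st_span h (Rc.int c n) (e ▸ cop_mul hI (q.cop_cj hI))

/-- every proper lattice comes from an ideal -/
theorem onto (hc : 0 < c) {M : ℕ} (hM : 0 < M) (hΛ : IsLat Λ)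
    (hE : ∀ a : O, (∀ w ∈ Λ, J a * w ∈ Λ) ↔ Rc c a) :
    ∃ I μ, Cop (c * M) I ∧ Hom μ Λ (st J I (Oc J c)) := by
  obtain ⟨P, rfl⟩ := hΛ
  have t := (hE _).2 (Rc.cm c ω)
  obtain ⟨a, b, e⟩ := PeriodPair.mem_lattice.1 (t _ P.ω₁_mem_lattice)
  obtain ⟨a', b', e'⟩ := PeriodPair.mem_lattice.1 (t _ P.ω₂_mem_lattice)
  obtain ⟨x, y, hn⟩ := rep_cop b (b' - a) (-a') (N := 2 * (c * M)) (by positivity)
    fun p hp ⟨i, h1⟩ ⟨j, h2⟩ ⟨k, h3⟩ => by
      have p0 : (p : ℂ) ≠ 0 := Nat.cast_ne_zero.2 hp.ne_zero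
      have r : ∀ w ∈ P.lattice, (J (c * ω) - a) / p * w ∈ P.lattice := fun w hw => by
        obtain ⟨u, v, rfl⟩ := PeriodPair.mem_lattice.1 hw
        refine PeriodPair.mem_lattice.2 ⟨-v * k, u * i + v * j, ?_⟩
        rw [h1] at e
        rw [eq_add_of_sub_eq h2, neg_eq_iff_eq_neg.1 h3] at e'
        push_cast at e e' ⊢
        field_simp
        linear_combination u * e + v * e'
      obtain ⟨z, hz⟩ := q.end_int ⟨P, rfl⟩ r (n := p) (Nat.cast_ne_zero.2 hp.ne_zero)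
        (x := c * ω - a) (by rw [map_sub, map_intCast]; push_cast; field_simp)
      have r2 := (hE z).1 (hz ▸ r)
      obtain ⟨u, v, rfl⟩ := q.sp z
      obtain ⟨l, rfl⟩ := q.rc_iff.1 r2
      have r3 := (q.ext (u := p * u) (v := p * (c * l)) (u' := -a) (v' := c) (q.inj (by
        rw [eq_div_iff p0] at hz
        simp only [map_add, map_mul, map_intCast, map_natCast] at hz ⊢
        push_cast at hz ⊢
        linear_combination hz))).2
      have r4 : (p : ℤ) * l = 1 := mul_left_cancel₀ (Nat.cast_ne_zero.2 hc.ne' : (c : ℤ) ≠ 0)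
        (by linear_combination r3)
      exact (Nat.prime_iff_prime_int.1 hp).not_dvd_one ⟨l, r4.symm⟩
  obtain ⟨n, en⟩ : ∃ n, n = b * x ^ 2 + (b' - a) * x * y + -a' * y ^ 2 := ⟨_, rfl⟩
  rw [← en, Nat.cast_mul, IsCoprime.mul_right_iff] at hn
  have n0 : n ≠ 0 := by
    rintro rfl
    exact absurd (isCoprime_zero_left.1 hn.1) (by decide)
  have n1 : (n : ℂ) ≠ 0 := Int.cast_ne_zero.2 n0
  have en' := congrArg (Int.cast : ℤ → ℂ) en
  push_cast at en'
  obtain ⟨w, ew⟩ : ∃ w : ℂ, w = x * P.ω₁ + y * P.ω₂ := ⟨_, rfl⟩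
  have w1 : w ∈ P.lattice := PeriodPair.mem_lattice.2 ⟨x, y, ew.symm⟩
  have f1 : n * P.ω₁ = ((x * b + y * b' : ℤ) - y * J (c * ω)) * w := by
    rw [ew, en']; push_cast; linear_combination (-(x : ℂ) * y) * e - (y : ℂ) ^ 2 * e'
  have f2 : n * P.ω₂ = (-(x * a + y * a' : ℤ) + x * J (c * ω)) * w := by
    rw [ew, en']; push_cast; linear_combination (x : ℂ) ^ 2 * e + (x : ℂ) * y * e'
  have w0 : w ≠ 0 := fun k => mul_ne_zero n1 (show P.ω₁ ≠ 0 from P.indep.ne_zero 0)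
    (by rw [f1, k, mul_zero])
  have H := hom_scl (div_ne_zero n1 w0) P.lattice
  generalize scl (n / w) P.lattice = L at H
  have E : ∀ a : O, (∀ w ∈ L, J a * w ∈ L) ↔ Rc c a := fun a => (hom_end H _).symm.trans (hE a)
  have kl : KL J c L := ⟨H.isLat ⟨P, rfl⟩, fun a => (E _).2 (Rc.cm c a)⟩
  have l1 : ∀ z ∈ L, z ∈ Oc J c := fun z hz => by
    obtain ⟨u, v, h⟩ := PeriodPair.mem_lattice.1 ((H.symm.2 z).1 hz)
    refine ⟨u * (x * b + y * b') - v * (x * a + y * a'), (v * x - u * y : ℤ) * ω,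
      mul_right_cancel₀ w0 ?_⟩
    rw [inv_div, div_mul_eq_mul_div, eq_div_iff n1] at h
    simp only [map_mul, map_intCast, map_natCast] at f1 f2 ⊢
    push_cast at f1 f2 ⊢
    linear_combination u * f1 + v * f2 - h
  have l2 : (n : ℂ) ∈ L := mem_of_eq ((H.2 w).1 w1) (by field_simp)
  let A : Ideal O :=
    { carrier := {x | ∀ b, J (c * b * x) ∈ L}
      add_mem' := fun h h' b => by rw [mul_add, map_add]; exact add_mem (h b) (h' b)
      zero_mem' := fun b => by simp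
      smul_mem' := fun t x h b => by rw [smul_eq_mul, ← mul_assoc, mul_assoc _ b]; exact h _ }
  have a1 : ∀ x, J x ∈ L → x ∈ A := fun x h b => by rw [map_mul]; exact kl.mul b _ h
  obtain ⟨i, j, cp⟩ := hn.2
  have cp' : (i : O) * n + j * (c * M) = 1 := by exact_mod_cast congrArg (Int.cast : ℤ → O) cp
  have a2 : Cop (c * M) A := by
    have h := a1 n (by rwa [map_intCast])
    refine cop_of (fun k => n0 (q.cast_inj ?_)) (A.mul_mem_left i h) (b := j)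
      (by push_cast; linear_combination cp')
    simpa [k] using h
  have a3 : st J A L = Oc J c := by
    ext z
    constructor
    · intro h
      have r : ∀ w ∈ L, z * w ∈ L := fun w hw => by
        obtain ⟨t, ht, rfl⟩ := mem_Oc.1 (l1 w hw)
        exact mul_comm z _ ▸ h t (a1 t hw) ((E t).2 ht)
      obtain ⟨t, -, ht⟩ := mem_Oc.1 (l1 _ (r _ l2))
      obtain ⟨y, rfl⟩ := q.end_int kl.lat r n0 (ht.trans (mul_comm _ _))
      exact q.J_mem.2 ((E y).1 r)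
    · intro h t ht r
      obtain ⟨y, hy, rfl⟩ := mem_Oc.1 h
      rw [mul_comm]
      refine hy.kl kl (mem_of_eq (add_mem (int_mul_mem i (r _ l2)) (ht (j * M))) ?_)
      have := congrArg J cp'
      simp only [map_mul, map_add, map_intCast, map_natCast, map_one] at this ⊢
      linear_combination -J t * this
  obtain ⟨n', -, -, H'⟩ := q.st_inv kl (cop_dvd a2)
  exact ⟨_, _, q.cop_cj a2, H.trans (a3 ▸ H').symm⟩

end Qd

theorem Qd.hom_iff [IsDedekindDomain O] (q : Qd J ω s) (hc : 0 < c) (hI : Cop c I) :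
    (∃ μ, Hom μ (st J I (Oc J c)) (Oc J c)) ↔ ∃ x, Rc c x ∧ I = Ideal.span {x} := by
  refine ⟨fun ⟨μ, H⟩ => ?_, fun ⟨x, hx, e⟩ => ⟨_, e ▸ q.st_span (q.kl_Oc hc) hx (e ▸ hI)⟩⟩
  obtain ⟨x, hx, e⟩ := mem_Oc.1 ((H.2 1).1 (le_st one_mem_Oc))
  obtain rfl : J x = μ := by simpa using e
  refine ⟨x, hx, le_antisymm (fun a ha => ?_) ((Ideal.span_singleton_le_iff_mem _).2 ?_)⟩
  · rw [← one_mul a]
    refine sp_le hI (fun a ha r => ?_) ha
    obtain ⟨y, -, e⟩ := mem_Oc.1 ((H.symm.2 1).1 one_mem_Oc a ha (q.end_Oc.2 r))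
    have := H.1
    exact Ideal.mem_span_singleton'.2 ⟨y, q.inj (by rw [map_mul, e, one_mul]; field_simp)⟩
  · obtain ⟨n, n0, e1, H1⟩ := q.st_inv (q.kl_Oc hc) hI
    have n1 : (n : ℂ) ≠ 0 := Int.cast_ne_zero.2 n0
    have k := ((hom_st H (I.comap s)).2 _).1 ((H1.symm.2 1).1 one_mem_Oc)
    have k2 : Ideal.span {x} * I.comap s ≤ I * I.comap s := by
      rw [e1, Ideal.span_singleton_mul_le_iff]
      refine fun a => sp_le (q.cop_cj hI) fun a ha r => ?_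
      obtain ⟨y, -, e⟩ := mem_Oc.1 (k a ha (q.end_Oc.2 r))
      exact Ideal.mem_span_singleton'.2 ⟨y, q.inj (by
        rw [map_mul, map_mul, e, map_intCast]; field_simp)⟩
    rw [← Ideal.dvd_iff_le, mul_dvd_mul_iff_right (q.cop_cj hI).1, Ideal.dvd_iff_le] at k2
    exact k2 (Ideal.mem_span_singleton_self x)

end Vale.Agent.P004K.Rc
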