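import Vale.Agent.P004K.Rc.R3
import Vale.Agent.P004K.Gm.Jh
import Vale.Agent.P004K.Gm.Mt
import Vale.Agent.P004K.Jf

/-! # P004K, block RC: the rows without hypotheses -/

namespace Vale.Agent.P004K

theorem x_mt : MT := mt Rc.iq int_row

theorem x_rc1 : RC1 := Rc.rc1 jh int_row x_mt

theorem x_rc2 : RC2 := Rc.rc2 jh int_row x_mt

theorem x_rc3 : RC3 := Rc.rc3 jh int_row x_mt

end Vale.Agent.P004K
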