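import Vale.Agent.P004K.St2
import Vale.Agent.P004K.Rc.Cyc
import Vale.Agent.P022.H651.FCH

/-! # P004K, block RC: the groups `Hc` and the Artin symbol (rows IQ, RC1, RC2) -/

set_option autoImplicit false
set_option linter.all false

open NumberField IsDedekindDomain

noncomputable section

namespace Vale.Agent.P004K.Rc

open Vale.Agent.P022 Vale.Agent.P022.C P027H P027M.M

theorem iq : IQ := fun _ _ _ j h => iq0 j h

section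

variable {σ : ℂ ≃+* ℂ} {Λ Λ' : Submodule ℤ ℂ}

theorem tp_of (hj : JH) (h : IsLat Λ) (h' : IsLat Λ') (e : σ (jL Λ) = jL Λ') :
    ∃ ψ, Tp σ Λ Λ' ψ :=
  let ⟨L, _, t⟩ := ex_tp h σ
  let ⟨_, H⟩ := (hj L Λ' t.lat' h').1 (t.jL.trans e)
  ⟨_, t.homR H⟩

theorem jst (hj : JH) {O : Type} [CommRing O] {J : O →+* ℂ} {I : Ideal O}
    (hσ : ∀ a, σ (J a) = J a) (h : IsLat Λ) (h' : IsLat Λ') (e : σ (jL Λ) = jL Λ')
    (hl : IsLat (st J I Λ)) : σ (jL (st J I Λ)) = jL (st J I Λ') :=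
  let ⟨_, t⟩ := tp_of hj h h' e
  (tp_st t hσ hl).jL.symm

end

variable {K : Type} [Field K] [NumberField K] {j : K →+* Qb} {ω : 𝓞 K} {s : 𝓞 K →+* 𝓞 K}
  {c m : ℕ} {I I' : Ideal (𝓞 K)} {g g' : GQ} {σ : ℂ ≃+* ℂ}

/-- `g` is an Artin symbol of `I` for all conductors -/
def Uv (j : K →+* Qb) (I : Ideal (𝓞 K)) (g : GK j) : Prop := ∃ σ, Ex σ g ∧ ∀ c Λ, Cop c I →
  KL (JJ j) c Λ → σ (jL Λ) = jL (st (JJ j) I Λ)

/-- the exponent of `v` in `I` -/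
def cnt (v : HeightOneSpectrum (𝓞 K)) (I : Ideal (𝓞 K)) : ℕ :=
  (Associates.mk v.asIdeal).count (Associates.mk I).factors

theorem mem_Hc : g ∈ Hc j c ↔ g ∈ GK j ∧ g (jc j c) = jc j c := Iff.rfl

theorem ar_iff (h : Ar j c I g) : Ar j c I g' ↔ g⁻¹ * g' ∈ Hc j c := by
  rw [mem_Hc, mul_mem_cancel_left (inv_mem h.1), Ar, ← h.2, io_inj.eq_iff, AlgEquiv.mul_apply,
    ← g.injective.eq_iff (a := g⁻¹ _), ← AlgEquiv.mul_apply, mul_inv_cancel, AlgEquiv.one_apply]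

theorem uv_mul (q : Qd (JJ j) ω s) {a b : GK j} (h : Uv j I a) (h' : Uv j I' b) :
    Uv j (I * I') (a * b) := by
  obtain ⟨σ, e, h⟩ := h
  obtain ⟨σ', e', h'⟩ := h'
  refine ⟨_, e.mul e', fun c Λ hI k => ?_⟩
  have h1 := cop_mono hI Ideal.mul_le_left
  have h2 := cop_mono hI Ideal.mul_le_right
  rw [← q.st_mul k h1 h2, ← h c _ h1 (q.kl_st k h2.1), ← h' c _ h2 k]
  rfl

theorem below_ne {P : Ideal (𝓞 Qb)} (h : below j P ≠ ⊥) : P ≠ ⊥ := fun k => h (by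
  rw [k]
  exact Ideal.comap_bot_of_injective _ fun x y e => RingOfIntegers.ext
    (j.injective (congrArg Subtype.val e)))

theorem uv_fr (hm : MT) (h : Iq K) {v : HeightOneSpectrum (𝓞 K)} {P : Ideal (𝓞 Qb)} {a : GK j}
    (f : FrI j v P a) : Uv j v.asIdeal a := by
  obtain ⟨f1, f2, f3⟩ := f
  obtain ⟨σ, e⟩ := ex_ex a
  refine ⟨σ, e, fun c Λ hI k => ?_⟩
  obtain ⟨ψ, t, -⟩ := hm K j h σ a e P f1 (below_ne (f2 ▸ v.ne_bot)) 1 (by simpa [f2] using f3) c Λ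
    (fun k => v.isPrime.ne_top (by
      rw [← hI.2, eq_comm, sup_eq_left, Ideal.span_singleton_le_iff_mem]
      exact f2 ▸ k)) k
  rw [pow_one, f2] at t
  exact t.jL.symm

theorem ex_uv (hm : MT) (h : Iq K) {fr : HeightOneSpectrum (𝓞 K) → GK j}
    (hfr : ∀ v, ∃ P, FrI j v P (fr v)) (hI : I ≠ ⊥) :
    ∃ a, Uv j I a ∧ ∀ θ : GK j →* ℂˣ, θ a = ∏ᶠ v, θ (fr v) ^ cnt v I := by
  obtain ⟨ω, s, q⟩ := qd j h
  induction I using UniqueFactorizationMonoid.induction_on_prime with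
  | h₁ => exact absurd rfl hI
  | h₂ I hu =>
    obtain rfl := Ideal.isUnit_iff.1 hu
    refine ⟨1, ⟨1, Ex.one, fun c Λ _ k => by rw [st_top]; rfl⟩, fun θ => ?_⟩
    rw [map_one, finprod_eq_one_of_forall_eq_one fun v => ?_]
    rw [cnt, ← Ideal.one_eq_top, Associates.mk_one, Associates.factors_one,
      Associates.count_zero v.associates_irreducible, pow_zero]
  | h₃ I p h0 hp ih =>
    obtain ⟨a, ha, e⟩ := ih h0
    let w : HeightOneSpectrum (𝓞 K) := ⟨p, Ideal.isPrime_of_prime hp, hp.ne_zero⟩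
    obtain ⟨P, f⟩ := hfr w
    refine ⟨_, uv_mul q (uv_fr hm h f) ha, fun θ => ?_⟩
    have k : ∀ {I : Ideal (𝓞 K)}, I ≠ ⊥ → (Function.mulSupport fun v => θ (fr v) ^ cnt v I).Finite :=
      fun hI => (Filter.eventually_cofinite.1 (Associates.finite_factors hI)).subset
        fun v hv k => hv (by simp only [cnt, Nat.cast_eq_zero.1 k, pow_zero])
    have k2 : θ (fr w) = ∏ᶠ v, θ (fr v) ^ cnt v p := by
      rw [finprod_eq_single _ w fun v hv => ?_]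
      · rw [cnt, show p = w.asIdeal from rfl, Associates.count_self w.associates_irreducible,
          pow_one]
      · rw [cnt, show p = w.asIdeal from rfl, Associates.count_eq_zero_of_ne
          v.associates_irreducible w.associates_irreducible fun k => hv (HeightOneSpectrum.ext
            (associated_iff_eq.1 (Associates.mk_eq_mk_iff_associated.1 k))), pow_zero]
    rw [map_mul, e, k2, ← finprod_mul_distrib (k hp.ne_zero) (k h0)]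
    exact finprod_congr fun v => by
      rw [← pow_add, cnt, cnt, cnt, ← Associates.mk_mul_mk, Associates.count_mul
        (Associates.mk_ne_zero.2 hp.ne_zero) (Associates.mk_ne_zero.2 h0) v.associates_irreducible]

theorem ex_uv' (hm : MT) (h : Iq K) (hI : I ≠ ⊥) : ∃ a, Uv j I a := by
  choose P fr hfr using H651.exists_frI j
  exact (ex_uv hm h (fun v => ⟨P v, hfr v⟩) hI).imp fun _ k => k.1

/-- the data shared by the proofs -/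
structure Dt (j : K →+* Qb) (ω : 𝓞 K) (s : 𝓞 K →+* 𝓞 K) : Prop where
  hj : JH
  hi : INT
  hm : MT
  iq : Iq K
  q : Qd (JJ j) ω s

theorem ex_dt (hj : JH) (hi : INT) (hm : MT) (j : K →+* Qb) (h : Iq K) : ∃ ω s, Dt j ω s :=
  let ⟨ω, s, q⟩ := qd j h
  ⟨ω, s, hj, hi, hm, h, q⟩

namespace Dt

variable (d : Dt j ω s) (hc : 0 < c)
include d hc

theorem lat : IsLat (Oc (JJ j) c) := (d.q.kl_Oc hc).lat

theorem lat' (hI : I ≠ ⊥) : IsLat (st (JJ j) I (Oc (JJ j) c)) := (d.q.kl_st (d.q.kl_Oc hc) hI).lat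

theorem io_jc : io (jc j c) = jL (Oc (JJ j) c) := by
  obtain ⟨τ, e, e1⟩ := d.q.oc_eq hc
  obtain ⟨u, v, e2⟩ := d.q.sp (ω * ω)
  have e3 := congrArg (JJ j) e2
  simp only [map_mul, map_add, map_intCast] at e3
  refine Function.invFun_eq (ex_io ?_)
  rw [e1]
  exact (d.hi τ (1, -c * v, -c ^ 2 * u) (by simp) (by
    simp only [P004Z.evq, e]
    push_cast
    linear_combination (c : ℂ) ^ 2 * e3)).tower_top.isAlgebraic

theorem ar_ex (e : Ex σ g) :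
    Ar j c I g ↔ g ∈ GK j ∧ σ (jL (Oc (JJ j) c)) = jL (st (JJ j) I (Oc (JJ j) c)) := by
  rw [Ar, ← e, d.io_jc hc]

theorem hc_ex (e : Ex σ g) :
    g ∈ Hc j c ↔ g ∈ GK j ∧ σ (jL (Oc (JJ j) c)) = jL (Oc (JJ j) c) := by
  rw [mem_Hc, ← d.io_jc hc, e, io_inj.eq_iff]

theorem ar_uv {a : GK j} (h : Uv j I a) (hI : Cop c I) : Ar j c I a :=
  let ⟨_, e, k⟩ := h
  (d.ar_ex hc e).2 ⟨a.2, k c _ hI (d.q.kl_Oc hc)⟩

theorem ex_ar (hI : Cop c I) : ∃ g, Ar j c I g :=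
  let ⟨_, h⟩ := ex_uv' d.hm d.iq hI.1
  ⟨_, d.ar_uv hc h hI⟩

theorem onto (hg : g ∈ GK j) (hm : 0 < m) : ∃ I, Cop (c * m) I ∧ Ar j c I g := by
  obtain ⟨σ, e⟩ := ex_ex g
  obtain ⟨Λ, ψ, t⟩ := ex_tp (d.lat hc) σ
  obtain ⟨I, μ, hI, H⟩ := d.q.onto hc hm t.lat' fun a => by
    rw [← d.q.end_Oc, ← t.cm_iff, e.JJ hg]
  exact ⟨I, hI, (d.ar_ex hc e).2 ⟨hg, by rw [jL_hom H t.lat', t.jL]⟩⟩

theorem ar_mul (hI : Cop c I) (hI' : Cop c I') (h : Ar j c I g) (h' : Ar j c I' g') :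
    Ar j c (I * I') (g * g') := by
  obtain ⟨σ, e⟩ := ex_ex g
  refine ⟨mul_mem h.1 h'.1, ?_⟩
  rw [AlgEquiv.mul_apply, ← e, h'.2, mul_comm, ← d.q.st_mul (d.q.kl_Oc hc) hI' hI]
  exact jst d.hj (e.JJ h.1) (d.lat hc) (d.lat' hc hI.1) ((d.ar_ex hc e).1 h).2 (d.lat' hc hI'.1)

theorem ar_hc (hI : Cop c I) (h : Ar j c I g) : g ∈ Hc j c ↔ ∃ x, Rc c x ∧ I = Ideal.span {x} := by
  rw [← d.q.hom_iff hc hI, ← d.hj _ _ (d.lat' hc hI.1) (d.lat hc), ← h.2, ← d.io_jc hc,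
    io_inj.eq_iff, mem_Hc, and_iff_right h.1]

theorem comm (hg : g ∈ GK j) (hg' : g' ∈ GK j) : g * g' * g⁻¹ * g'⁻¹ ∈ Hc j c := by
  obtain ⟨I, hI, h⟩ := d.onto hc (inv_mem hg) one_pos
  obtain ⟨I', hI', h'⟩ := d.onto hc (inv_mem hg') one_pos
  have := (ar_iff (d.ar_mul hc (cop_dvd hI') (cop_dvd hI) h' h)).1
    (mul_comm I I' ▸ d.ar_mul hc (cop_dvd hI) (cop_dvd hI') h h')
  rwa [mul_inv_rev, inv_inv, inv_inv, ← mul_assoc] at this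

theorem dih (hg : g ∉ GK j) (hg' : g' ∈ GK j) : g * g' * g⁻¹ * g' ∈ Hc j c := by
  obtain ⟨k, e⟩ := ex_g starRingAut
  have k1 : k ∉ GK j := fun h =>
    d.q.im.ne' (Complex.conj_eq_iff_im.1 (e.JJ h ω))
  have k2 : k (jc j c) = jc j c := io_inj (by
    rw [← e, d.io_jc hc, ← (tp_cj (d.lat hc)).jL, d.q.cj_Oc])
  have k3 : k * g' * k⁻¹ ∈ GK j := H916.mul_inv_mem j d.iq.two
    (fun h => k1 ((mul_mem_cancel_right hg').1 h)) k1
  obtain ⟨I, hI, h⟩ := d.onto hc hg' one_pos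
  replace hI := cop_dvd hI
  have h1 : Ar j c (I.comap s) (k * g' * k⁻¹) := ⟨k3, by
    rw [AlgEquiv.mul_apply, AlgEquiv.mul_apply, show k⁻¹ (jc j c) = jc j c from
      k.symm_apply_eq.2 k2.symm, ← e, h.2, ← (tp_cj (d.lat' hc hI.1)).jL, d.q.cj_st, d.q.cj_Oc]⟩
  obtain ⟨n, -, e1⟩ := d.q.mul_cj hI.1
  have h2 := (d.ar_hc hc (cop_mul (d.q.cop_cj hI) hI) (d.ar_mul hc (d.q.cop_cj hI) hI h1 h)).2
    ⟨n, Rc.int c n, by rw [mul_comm, e1]⟩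
  have := mul_mem (d.comm hc (H916.mul_inv_mem j d.iq.two hg k1) k3) h2
  rwa [show g * k⁻¹ * (k * g' * k⁻¹) * (g * k⁻¹)⁻¹ * (k * g' * k⁻¹)⁻¹ * (k * g' * k⁻¹ * g') =
    g * g' * g⁻¹ * g' by group] at this

theorem nrm : (Hc j c).Normal := ⟨fun h hh g => by
  by_cases hg : g ∈ GK j
  · simpa using mul_mem (d.comm hc hg hh.1) hh
  · simpa using mul_mem (d.dih hc hg hh.1) (inv_mem hh)⟩

theorem hc_le (hm : 0 < m) : Hc j (c * m) ≤ Hc j c := fun g hg => by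
  obtain ⟨σ, e⟩ := ex_ex g
  have h := Nat.mul_pos hc hm
  rw [d.hc_ex hc e, ← d.q.st_cond hc hm]
  exact ⟨hg.1, jst d.hj (e.JJ hg.1) (d.lat h) (d.lat h) ((d.hc_ex h e).1 hg).2
    (d.q.st_cond hc hm ▸ d.lat hc)⟩

theorem ar_dvd (hm : 0 < m) (hI : Cop (c * m) I) (h : Ar j (c * m) I g) : Ar j c I g :=
  let ⟨_, u⟩ := ex_uv' d.hm d.iq hI.1
  (ar_iff (d.ar_uv hc u (cop_dvd hI))).2 (d.hc_le hc hm
    ((ar_iff (d.ar_uv (Nat.mul_pos hc hm) u hI)).1 h))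

theorem ar_fr {P : Ideal (𝓞 Qb)} (hP : P.IsPrime) (h0 : P ≠ ⊥) (h1 : (c : 𝓞 Qb) ∉ P)
    (hg : g ∈ GK j) {k : ℕ} (h : ∀ x : 𝓞 Qb, g • x - x ^ Ideal.absNorm (below j P) ^ k ∈ P) :
    Ar j c (below j P ^ k) g := by
  obtain ⟨σ, e⟩ := ex_ex g
  obtain ⟨ψ, t, -⟩ := d.hm K j d.iq σ ⟨g, hg⟩ e P hP h0 k h c _
    (fun k => h1 (by simpa [below] using k)) (d.q.kl_Oc hc)
  exact (d.ar_ex hc e).2 ⟨hg, t.jL.symm⟩

theorem inert {P : Ideal (𝓞 Qb)} (hP : P.IsPrime) (h0 : P ≠ ⊥) (h1 : (c : 𝓞 Qb) ∉ P)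
    (hg : g ∈ GK j) (h : ∀ x : 𝓞 Qb, g • x - x ∈ P) : g ∈ Hc j c := by
  have := d.ar_fr hc hP h0 h1 hg (k := 0) (by simpa using h)
  rw [pow_zero, Ideal.one_eq_top] at this
  exact (d.ar_hc hc cop_top this).2 ⟨1, ⟨1, 0, by simp⟩, by simp⟩

end Dt

theorem hc_open (j : K →+* Qb) (c : ℕ) : IsOpen (Hc j c : Set GQ) :=
  (H916.isOpen_GK j).inter (stabilizer_isOpen_of_isIntegral _)

theorem rc1 (hj : JH) (hi : INT) (hm : MT) : RC1 := fun _ _ _ j h c hc =>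
  let ⟨_, _, d⟩ := ex_dt hj hi hm j h
  ⟨d.io_jc hc, hc_open j c, d.nrm hc, fun _ hg _ => d.comm hc hg, fun _ hg _ => d.dih hc hg,
    fun _ => d.hc_le hc⟩

theorem rc2 (hj : JH) (hi : INT) (hm : MT) : RC2 := fun _ _ _ j h c hc =>
  let ⟨_, _, d⟩ := ex_dt hj hi hm j h
  ⟨fun _ => d.ex_ar hc, fun _ hg _ => d.onto hc hg, fun _ _ _ _ => d.ar_mul hc,
    fun _ _ _ => ar_iff, fun _ _ hI h => (d.ar_hc hc hI h).trans
      ⟨fun ⟨_, ⟨k, a, rfl⟩, e⟩ => ⟨k, a, e⟩, fun ⟨k, a, e⟩ => ⟨_, ⟨k, a, rfl⟩, e⟩⟩,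
    fun _ _ _ => d.ar_dvd hc, fun _ hP h0 h1 _ hg _ => d.ar_fr hc hP h0 h1 hg⟩

end Vale.Agent.P004K.Rc
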