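import Vale.Agent.P004K.Rc.R1
import Vale.Agent.P022K.PB.Pw

/-! # P004K, block RC: composita and total ramification (row RC3) -/

set_option autoImplicit false
set_option linter.all false

open NumberField IsDedekindDomain

noncomputable section

namespace Vale.Agent.P004K.Rc

open Vale.Agent.P022 Vale.Agent.P022.C P027H P027M.M

/-- characters separate a subgroup with finite commutative quotient -/
theorem ex_char {G : Type} [Group G] (N : Subgroup G) (h : ∀ a b, a * b * a⁻¹ * b⁻¹ ∈ N)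
    [Finite (G ⧸ N)] {g : G} (hg : g ∉ N) :
    ∃ (θ : G →* ℂˣ) (n : ℕ), 0 < n ∧ (∀ a, θ a ^ n = 1) ∧ (∀ a ∈ N, θ a = 1) ∧ θ g ≠ 1 := by
  have : N.Normal := ⟨fun a ha b => by simpa using mul_mem (h b a) ha⟩
  letI : CommGroup (G ⧸ N) := { QuotientGroup.Quotient.group N with
    mul_comm := fun a b => by
      obtain ⟨a, rfl⟩ := QuotientGroup.mk_surjective a
      obtain ⟨b, rfl⟩ := QuotientGroup.mk_surjective b
      exact QuotientGroup.eq.2 (by simpa [mul_assoc] using h b⁻¹ a⁻¹) }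
  obtain ⟨φ, e⟩ := CommGroup.exists_apply_ne_one_of_hasEnoughRootsOfUnity (G ⧸ N) ℂ
    (mt (QuotientGroup.eq_one_iff g).1 hg)
  exact ⟨φ.comp (QuotientGroup.mk' N), Nat.card (G ⧸ N), Nat.card_pos, fun a => by
    rw [MonoidHom.comp_apply, ← map_pow, pow_card_eq_one', map_one], fun a ha => by
    rw [MonoidHom.comp_apply, QuotientGroup.mk'_apply, (QuotientGroup.eq_one_iff a).2 ha, map_one],
    e⟩

theorem int_mem {l : ℕ} (hl : l.Prime) {P : Ideal (𝓞 Qb)} (hP : P.IsPrime) (h : (l : 𝓞 Qb) ∈ P)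
    {z : ℤ} : (z : 𝓞 Qb) ∈ P ↔ (l : ℤ) ∣ z := by
  refine ⟨fun k => by_contra fun n => ?_, fun ⟨k, e⟩ => ?_⟩
  · obtain ⟨a, b, e⟩ := (Nat.prime_iff_prime_int.1 hl).coprime_iff_not_dvd.2 n
    refine hP.ne_top ((Ideal.eq_top_iff_one _).2 ?_)
    rw [← Int.cast_one, ← e, Int.cast_add, Int.cast_mul, Int.cast_mul, Int.cast_natCast]
    exact add_mem (P.mul_mem_left _ h) (P.mul_mem_left _ k)
  · rw [e, Int.cast_mul, Int.cast_natCast]
    exact P.mul_mem_right _ h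

theorem inert_conj {l : ℕ} (hl : l.Prime) {P Q : Ideal (𝓞 Qb)} (hP : P.IsPrime) (hQ : Q.IsPrime)
    (h : (l : 𝓞 Qb) ∈ P) (h' : (l : 𝓞 Qb) ∈ Q) :
    ∃ k : GQ, ∀ g : GQ, (∀ x : 𝓞 Qb, g • x - x ∈ Q) → ∀ x : 𝓞 Qb, (k⁻¹ * g * k) • x - x ∈ P := by
  obtain ⟨g, hg⟩ := H916.exists_smul (algebraMap ℚ Qb) hP hQ (Ideal.ext fun x => by
    obtain ⟨z, rfl⟩ := Rat.ringOfIntegersEquiv.symm.surjective x
    simp only [eq_intCast, below, Ideal.mem_comap, map_intCast, int_mem hl hP h, int_mem hl hQ h'])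
  refine ⟨g, fun k hk x => ?_⟩
  have := hk ((g : GQ) • x)
  rw [hg, Ideal.mem_pointwise_smul_iff_inv_smul_mem, smul_sub, inv_smul_smul] at this
  rwa [mul_smul, mul_smul]

variable {K : Type} [Field K] [NumberField K] {j : K →+* Qb} {ω : 𝓞 K} {s : 𝓞 K →+* 𝓞 K}
  {c c' l n : ℕ} {a b : 𝓞 K} {g : GQ} {P : Ideal (𝓞 Qb)}

theorem rc_span (hu : Upm K) (e : Ideal.span {a} = Ideal.span {b}) (h : Rc c b) : Rc c a := by
  obtain ⟨u, rfl⟩ := (Ideal.span_singleton_eq_span_singleton.1 e).symm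
  rcases hu u with rfl | rfl
  · simpa using h
  · simpa using h.neg

theorem cop_iff (hl : l.Prime) (q : Qd (JJ j) ω s) :
    Cop l (Ideal.span {a}) ↔ IsCoprime a (l : 𝓞 K) := by
  refine ⟨fun h => (Ideal.sup_eq_top_iff_isCoprime _ _).1 h.2, fun h =>
    ⟨fun k => ?_, (Ideal.sup_eq_top_iff_isCoprime _ _).2 h⟩⟩
  rw [Ideal.span_singleton_eq_bot.1 k, isCoprime_zero_left] at h
  exact (Nat.prime_iff_prime_int.1 hl).not_dvd_one (q.dvd_int (by simpa using h.dvd))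

namespace Dt

variable (d : Dt j ω s)
include d

theorem inf (hu : Upm K) (hc : 0 < c) (hc' : 0 < c') (cp : c.Coprime c') :
    Hc j (c * c') = Hc j c ⊓ Hc j c' := by
  refine le_antisymm (le_inf (d.hc_le hc hc') (mul_comm c c' ▸ d.hc_le hc' hc)) fun g hg => ?_
  obtain ⟨I, hI, h⟩ := d.onto (Nat.mul_pos hc hc') hg.1.1 one_pos
  replace hI := cop_dvd hI
  obtain ⟨x, hx, e⟩ := (d.ar_hc hc (cop_dvd hI) (d.ar_dvd hc hc' hI h)).1 hg.1
  refine (d.ar_hc (Nat.mul_pos hc hc') hI h).2 ⟨x, ?_, e⟩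
  rw [mul_comm] at hI h
  obtain ⟨y, hy, e'⟩ := (d.ar_hc hc' (cop_dvd hI) (d.ar_dvd hc' hc hI h)).1 hg.2
  have := rc_span hu (e.symm.trans e') hy
  obtain ⟨u, v, rfl⟩ := d.q.sp x
  rw [d.q.rc_iff] at hx this ⊢
  rw [Nat.cast_mul]
  exact (Nat.isCoprime_iff_coprime.2 cp).mul_dvd hx this

/-- the symbols of principal ideals come from the inertia group -/
theorem ram (hl : l.Prime) (hP : P.IsPrime) (h1 : (l : 𝓞 Qb) ∈ P) (hI : Cop l (Ideal.span {a}))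
    (h : Ar j l (Ideal.span {a}) g) :
    ∃ t ∈ GK j, (∀ x : 𝓞 Qb, t • x - x ∈ P) ∧ Ar j l (Ideal.span {a}) t := by
  have := d.nrm hl.pos
  have := d.iq.im
  let N := (P.toAddSubgroup.inertia GQ ⊓ GK j) ⊔ Hc j l
  have n1 : Hc j l ≤ N := le_sup_right
  have n2 : ∀ t ∈ GK j, (∀ x : 𝓞 Qb, t • x - x ∈ P) → t ∈ N := fun t h h' =>
    Subgroup.mem_sup_left ⟨h', h⟩
  suffices k : g ∈ N by
    obtain ⟨t, ht, z, hz, rfl⟩ := Subgroup.mem_sup_of_normal_right.1 k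
    exact ⟨t, ht.2, ht.1, (ar_iff h).2 (by simpa using hz)⟩
  by_contra k
  have o : IsOpen ((N.subgroupOf (GK j) : Subgroup (GK j)) : Set (GK j)) :=
    (Subgroup.isOpen_mono n1 (hc_open j l)).preimage continuous_subtype_val
  have := Subgroup.quotient_finite_of_isOpen' _ _ (H916.isOpen_GK j) o
  obtain ⟨θ, n, n0, t1, t2, t3⟩ := ex_char (N.subgroupOf (GK j)) (g := ⟨g, h.1⟩)
    (fun a b => n1 (d.comm hl.pos a.2 b.2)) k
  obtain ⟨fr, hfr⟩ := P022K.PB.exists_fr j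
  have a0 : a ≠ 0 := fun e => hI.1 (Ideal.span_singleton_eq_bot.2 e)
  have e := P022K.PB.pwl θ (Subgroup.isOpen_mono t2 o) hfr n0 t1 one_ne_zero (x := a)
    (fun v _ Q hQ hv u hu => t2 u ?_) (by exact_mod_cast a0) fun v hv =>
      absurd ((Ideal.eq_top_iff_one _).2 (by simpa using hv)) v.isPrime.ne_top
  · obtain ⟨u, hu, e1⟩ := ex_uv d.hm d.iq hfr hI.1
    have e2 := t2 (u⁻¹ * ⟨g, h.1⟩) (n1 ((ar_iff (d.ar_uv hl.pos hu hI)).1 h))
    rw [map_mul, map_inv, inv_mul_eq_one] at e2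
    refine t3 (e2.symm.trans ((e1 θ).trans (Eq.trans (finprod_congr fun v => ?_) e)))
    rw [ordv, show (a : K) = algebraMap _ _ a from rfl, v.valuation_of_algebraMap,
      v.intValuation_if_neg a0, WithZero.log_exp, neg_neg, zpow_natCast, cnt]
  · show (u : GQ) ∈ N
    by_cases h2 : (l : 𝓞 Qb) ∈ Q
    · obtain ⟨k, hk⟩ := inert_conj hl hP hQ h1 h2
      by_cases h3 : k⁻¹ ∈ GK j
      · have e := d.comm hl.pos h3 u.2
        rw [inv_inv] at e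
        simpa [mul_assoc] using mul_mem (inv_mem (n1 e))
          (n2 _ ((mul_mem_cancel_right (inv_mem u.2)).1 e.1) (hk u hu))
      · have e := d.dih hl.pos h3 u.2
        rw [inv_inv] at e
        exact (mul_mem_cancel_left (n2 _ ((mul_mem_cancel_right u.2).1 e.1) (hk u hu))).1 (n1 e)
    · exact n1 (d.inert hl.pos hQ (below_ne (hv ▸ v.ne_bot)) h2 u.2 hu)

theorem gen (hu : Upm K) (hl : l.Prime) (ha : Cg l n a) (hP : P.IsPrime) (h1 : (l : 𝓞 Qb) ∈ P) :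
    ∃ t : GQ, (∀ x : 𝓞 Qb, t • x - x ∈ P) ∧ ∀ c, 0 < c → ¬ l ∣ c → Gen j c l n t := by
  have a1 := (cop_iff hl d.q).2 ha.1
  obtain ⟨g, hg⟩ := d.ex_ar hl.pos a1
  obtain ⟨t, t1, t2, t3⟩ := d.ram hl hP h1 a1 hg
  have a2 : ∀ i : ℕ, Cop l (Ideal.span {a ^ i}) := fun i => (cop_iff hl d.q).2 ha.1.pow_left
  have a3 : ∀ i : ℕ, Ar j l (Ideal.span {a ^ i}) (t ^ i) := fun i => by
    induction i with
    | zero => exact ⟨one_mem _, by rw [pow_zero, pow_zero, Ideal.span_singleton_one, st_top,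
        ← d.io_jc hl.pos, AlgEquiv.one_apply]⟩
    | succ i ih =>
      rw [pow_succ, pow_succ, ← Ideal.span_singleton_mul_span_singleton]
      exact d.ar_mul hl.pos (a2 i) a1 ih t3
  refine ⟨t, t2, fun c hc hd => ?_⟩
  have b1 : t ∈ Hc j c := d.inert hc hP (fun k => hl.ne_zero (by simpa [k] using h1))
    (fun k => hd (Int.natCast_dvd_natCast.1 ((int_mem hl hP h1).1 (by simpa using k)))) t1 t2
  rw [Gen, d.inf hu hc hl.pos ((hl.coprime_iff_not_dvd).2 hd).symm]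
  refine ⟨b1, fun i => ?_, fun g hg => ?_⟩
  · rw [Subgroup.mem_inf, and_iff_right (pow_mem b1 i), d.ar_hc hl.pos (a2 i) (a3 i), ← ha.2.1]
    exact ⟨fun ⟨x, hx, e⟩ => rc_span hu e hx, fun h => ⟨_, h, rfl⟩⟩
  · obtain ⟨I, hI, h⟩ := d.onto hl.pos (inv_mem hg.1) one_pos
    replace hI := cop_dvd hI
    obtain ⟨x, -, rfl⟩ := (d.ar_hc one_pos (cop_dvd (by rwa [one_mul])) (d.ar_dvd one_pos hl.pos
      (by rwa [one_mul]) (by rwa [one_mul]))).1 (d.hc_le one_pos hc (by simpa using hg))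
    obtain ⟨i, hi⟩ := ha.2.2 x ((cop_iff hl d.q).1 hI)
    exact ⟨i, (Hc j c).mul_mem (inv_mem hg) (pow_mem b1 i), (d.ar_hc hl.pos (cop_mul hI (a2 i))
      (d.ar_mul hl.pos hI (a2 i) h (a3 i))).2 ⟨_, hi, by
        rw [Ideal.span_singleton_mul_span_singleton, mul_comm]⟩⟩

end Dt

theorem cg_typ (h : Iq K) (ht : Typ K l n) : ∃ a : 𝓞 K, Cg l n a := by
  obtain ⟨hl, ⟨hp, rfl⟩ | ⟨⟨I, I', h1, h2, h3, h4⟩, rfl⟩⟩ := ht
  · exact cyc_in h hl hp
  · exact cyc_sp h hl h1 h2 h3 h4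

theorem rc3 (hj : JH) (hi : INT) (hm : MT) : RC3 := fun _ _ _ j h hu =>
  let ⟨_, _, d⟩ := ex_dt hj hi hm j h
  ⟨fun _ _ => d.inf hu, fun _ _ ht _ =>
    let ⟨_, ha⟩ := cg_typ h ht
    d.gen hu ht.1 ha⟩

end Vale.Agent.P004K.Rc
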